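import Vale.Agent.P181.H75.RDefs

/-!
# [R3] of the rectangle (R): the signed number of subsets

`∑ K, |K| = k, K ⊆ {0, …, b - 1}` of `((-1) ^ (a - 1)) ^ (∑ K)` is not zero when `b` is even and
either `a` is odd or `k` is even.
-/

namespace Vale.Agent.P181.H831

open Finset Polynomial

/-- the product `∏ s < 2 m, (1 + (-1)^s X)` is `(1 - X²)^m`. -/
theorem prod_sign (m : ℕ) :
    ∏ s ∈ range (2 * m), (1 + C ((-1 : ℤ) ^ s) * X) = (1 - X ^ 2 : ℤ[X]) ^ m := by
  induction m with
  | zero => simp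
  | succ m ih =>
    rw [show 2 * (m + 1) = 2 * m + 1 + 1 by ring, prod_range_succ, prod_range_succ, ih, pow_succ]
    have h1 : (-1 : ℤ) ^ (2 * m) = 1 := by rw [pow_mul]; simp
    have h2 : (-1 : ℤ) ^ (2 * m + 1) = -1 := by rw [pow_succ, h1]; norm_num
    rw [h1, h2]
    simp only [map_one, map_neg, one_mul]
    ring

/-- expansion of the product. -/
theorem sum_pow_eq {ι : Type*} [DecidableEq ι] (S : Finset ι) (k : ℕ) (ε : ι → ℤ) :
    ∑ K ∈ powersetCard k S, ∏ s ∈ K, ε s = (∏ s ∈ S, (1 + C (ε s) * X)).coeff k := by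
  have h : ∏ s ∈ S, (1 + C (ε s) * X : ℤ[X])
      = ∑ K ∈ S.powerset, C (∏ s ∈ K, ε s) * X ^ K.card := by
    rw [prod_one_add]
    refine sum_congr rfl fun K _ => ?_
    rw [prod_mul_distrib, prod_const, map_prod]
  rw [h, finsetSum_coeff]
  simp only [coeff_C_mul, coeff_X_pow]
  rw [← sum_filter_add_sum_filter_not S.powerset (fun K => K.card = k)]
  have h2 : ∑ K ∈ S.powerset with ¬ K.card = k,
      (∏ s ∈ K, ε s) * (if k = K.card then 1 else 0) = 0 := by
    refine sum_eq_zero fun K hK => ?_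
    rw [mem_filter] at hK
    rw [if_neg (fun h => hK.2 h.symm), mul_zero]
  rw [h2, add_zero]
  have h3 : S.powerset.filter (fun K => K.card = k) = powersetCard k S := by
    ext K
    simp [mem_powersetCard]
  rw [h3]
  refine sum_congr rfl fun K hK => ?_
  rw [mem_powersetCard] at hK
  rw [if_pos hK.2.symm, mul_one]

theorem coeff_one_sub (m j : ℕ) :
    ((1 - X ^ 2 : ℤ[X]) ^ m).coeff (2 * j) = (-1) ^ j * (m.choose j : ℤ) := by
  have h : (1 - X ^ 2 : ℤ[X]) ^ m
      = ∑ i ∈ range (m + 1), C ((-1 : ℤ) ^ i * (m.choose i : ℤ)) * X ^ (2 * i) := by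
    rw [sub_eq_add_neg, add_comm, add_pow]
    refine sum_congr rfl fun i _ => ?_
    rw [one_pow, mul_one, neg_pow, ← pow_mul]
    simp only [map_mul, map_pow, map_neg, map_one, map_natCast]
    ring
  rw [h, finsetSum_coeff]
  simp only [coeff_C_mul, coeff_X_pow]
  by_cases hj : j < m + 1
  · rw [sum_eq_single j]
    · simp
    · intro i _ hi
      rw [if_neg (by omega), mul_zero]
    · intro hn
      exact absurd (mem_range.2 hj) hn
  · rw [sum_eq_zero, Nat.choose_eq_zero_of_lt (by omega)]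
    · simp
    · intro i hi
      rw [mem_range] at hi
      rw [if_neg (by omega), mul_zero]

/-- **[R3]** the signed number of `k`-subsets. -/
theorem r3 : H75.R3 := by
  intro a k b ha hk hb hak
  rcases Nat.even_or_odd (a - 1) with he | ho
  · have h : ∀ K ∈ powersetCard k (univ : Finset (Fin b)),
        ((-1 : ℤ) ^ (a - 1)) ^ (∑ s ∈ K, (s : ℕ)) = 1 := by
      intro K _
      rw [he.neg_one_pow, one_pow]
    rw [sum_congr rfl h, sum_const, card_powersetCard, card_univ, Fintype.card_fin]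
    simp only [mul_one, nsmul_eq_mul, ne_eq, Nat.cast_eq_zero]
    exact (Nat.choose_pos hk).ne'
  · have hkE : Even k := by
      rcases hak with h | h
      · exfalso
        obtain ⟨c, hc⟩ := h
        obtain ⟨d, hd⟩ := ho
        omega
      · exact h
    obtain ⟨m, hm⟩ := hb
    obtain ⟨j, hj⟩ := hkE
    have h : ∀ K ∈ powersetCard k (univ : Finset (Fin b)),
        ((-1 : ℤ) ^ (a - 1)) ^ (∑ s ∈ K, (s : ℕ)) = ∏ s ∈ K, (-1 : ℤ) ^ (s : ℕ) := by
      intro K _
      rw [ho.neg_one_pow, ← prod_pow_eq_pow_sum]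
    rw [sum_congr rfl h, sum_pow_eq,
      Fin.prod_univ_eq_prod_range (fun s => (1 + C ((-1 : ℤ) ^ s) * X : ℤ[X])) b,
      show b = 2 * m by omega, prod_sign, show k = 2 * j by omega, coeff_one_sub]
    refine mul_ne_zero (pow_ne_zero _ (by norm_num)) ?_
    exact_mod_cast (Nat.choose_pos (by omega)).ne'

end Vale.Agent.P181.H831
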