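import Vale.Agent.P181.H75.RDefs

set_option autoImplicit false

/-!
# [R2] of the rectangle (R): the base configuration

`b = q a + k`, the last `k` particles are dissolved. Every placement with non zero weight is forced up
to a permutation `π` of the slots: the kept particle `s` lies in the slot `π (s % a)` and the letter
`i` of a dissolved particle in the slot `π (a - 1 - i)`. So all non zero weights are equal (`b` is
even) and there is one.
-/

namespace Vale.Agent.P181.H831

open Finset H75

/-- The model. -/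
def phi (Q a s i : ℕ) : ℕ := if s < Q then s % a else a - 1 - i

theorem phi_lt {Q a : ℕ} (ha : 0 < a) (s i : ℕ) : phi Q a s i < a := by
  unfold phi
  split_ifs
  · exact Nat.mod_lt _ ha
  · omega

theorem mod_near {q a x : ℕ} (h1 : q * a ≤ x + a) (h2 : x < q * a) :
    x % a + q * a = x + a := by
  obtain _ | q := q
  · omega
  · rw [Nat.succ_mul] at h1 h2 ⊢
    have h3 : q * a ≤ x := by omega
    obtain ⟨y, rfl⟩ := Nat.exists_eq_add_of_le h3
    have h4 : (q * a + y) % a = y := by
      rw [Nat.add_comm, Nat.add_mul_mod_self_right]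
      exact Nat.mod_eq_of_lt (by omega)
    rw [h4]
    omega

theorem mod_ne {a c i j : ℕ} (hij : i < j) (hj : j < a) : (c + i) % a ≠ (c + j) % a := by
  intro h
  have h1 : (c + i) ≡ (c + j) [MOD a] := h
  have h2 : i ≡ j [MOD a] := Nat.ModEq.add_left_cancel' c h1
  have h3 : i % a = j % a := h2
  rw [Nat.mod_eq_of_lt (by omega), Nat.mod_eq_of_lt hj] at h3
  omega

theorem phi_ne {a k q b c i j : ℕ} (hb : b = q * a + k) (hq : a ≤ q * a) (hc : c < b) (hij : i < j)
    (hj : j < a) : phi (q * a) a (ad b c i) i ≠ phi (q * a) a (ad b c j) j := by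
  have hLL := mod_ne (c := c) hij hj
  by_cases hi1 : c + i < b
  · have e1 : ad b c i = c + i := if_pos hi1
    rw [e1]
    by_cases hj1 : c + j < b
    · have e2 : ad b c j = c + j := if_pos hj1
      rw [e2]
      by_cases hi2 : c + i < q * a
      · have e3 : phi (q * a) a (c + i) i = (c + i) % a := if_pos hi2
        rw [e3]
        by_cases hj2 : c + j < q * a
        · have e4 : phi (q * a) a (c + j) j = (c + j) % a := if_pos hj2
          rw [e4]
          exact hLL
        · have e4 : phi (q * a) a (c + j) j = a - 1 - j := if_neg hj2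
          rw [e4]
          have := mod_near (q := q) (a := a) (x := c + i) (by omega) hi2
          omega
      · have e3 : phi (q * a) a (c + i) i = a - 1 - i := if_neg hi2
        have e4 : phi (q * a) a (c + j) j = a - 1 - j := if_neg (by omega)
        rw [e3, e4]
        omega
    · have e2 : ad b c j = c + j - b := if_neg hj1
      have e4 : phi (q * a) a (c + j - b) j = (c + j - b) % a := if_pos (by omega)
      rw [e2, e4, Nat.mod_eq_of_lt (by omega)]
      by_cases hi2 : c + i < q * a
      · have e3 : phi (q * a) a (c + i) i = (c + i) % a := if_pos hi2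
        rw [e3]
        have := mod_near (q := q) (a := a) (x := c + i) (by omega) hi2
        omega
      · have e3 : phi (q * a) a (c + i) i = a - 1 - i := if_neg hi2
        rw [e3]
        omega
  · have e1 : ad b c i = c + i - b := if_neg hi1
    have e2 : ad b c j = c + j - b := if_neg (by omega)
    have e3 : phi (q * a) a (c + i - b) i = (c + i - b) % a := if_pos (by omega)
    have e4 : phi (q * a) a (c + j - b) j = (c + j - b) % a := if_pos (by omega)
    rw [e1, e2, e3, e4, Nat.mod_eq_of_lt (by omega), Nat.mod_eq_of_lt (by omega)]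
    omega

/-- The model column. -/
def Phi (Q b : ℕ) {a : ℕ} (ha : 0 < a) (c : ℕ) (i : Fin a) : Fin a :=
  ⟨phi Q a (ad b c i) i, phi_lt ha _ _⟩

theorem Phi_bij {a k q b c : ℕ} (ha : 0 < a) (hb : b = q * a + k) (hq : 0 < q) (hc : c < b) :
    Function.Bijective (Phi (q * a) b ha c) := by
  have hqa : a ≤ q * a := Nat.le_mul_of_pos_left a hq
  refine (Fintype.bijective_iff_injective_and_card _).2 ⟨?_, rfl⟩
  intro i j hij
  have h : phi (q * a) a (ad b c i) i = phi (q * a) a (ad b c j) j := congrArg Fin.val hij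
  rcases lt_trichotomy (i : ℕ) (j : ℕ) with h1 | h1 | h1
  · exact absurd h (phi_ne hb hqa hc h1 j.2)
  · exact Fin.ext h1
  · exact absurd h.symm (phi_ne hb hqa hc h1 i.2)

theorem bij_eq {a : ℕ} (f g : Fin a → Fin a) (hf : Function.Bijective f)
    (hg : Function.Bijective g) (h : ∀ i, ((g i : Fin a) : ℕ) ≤ f i) (i : Fin a) : f i = g i := by
  have h1 : ∑ i : Fin a, ((f i : Fin a) : ℕ) = ∑ i : Fin a, (i : ℕ) := hf.sum_comp (fun i : Fin a => (i : ℕ))
  have h2 : ∑ i : Fin a, ((g i : Fin a) : ℕ) = ∑ i : Fin a, (i : ℕ) := hg.sum_comp (fun i : Fin a => (i : ℕ))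
  have h3 := (Finset.sum_eq_sum_iff_of_le (s := univ) (fun i _ => h i)).1 (h2.trans h1.symm) i
    (mem_univ i)
  exact Fin.ext h3.symm

theorem bij_one {a : ℕ} (f g : Fin a → Fin a) (hf : Function.Bijective f)
    (hg : Function.Bijective g) (i : Fin a) (h : ∀ j, j ≠ i → f j = g j) : f i = g i := by
  obtain ⟨j, hj⟩ := hg.2 (f i)
  by_cases hji : j = i
  · rw [← hj, hji]
  · exact absurd (hf.1 ((h j hji).trans hj)) hji

/-- **Everything is forced.** -/
theorem forced {a k q b : ℕ} (ha : 0 < a) (hq : 0 < q) (hb : b = q * a + k) (hab : a ≤ b)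
    (v : Fin b → Fin a → Fin a)
    (h1 : ∀ s : Fin b, (s : ℕ) < q * a → ∀ i j, v s i = v s j)
    (h2 : ∀ s : Fin b, q * a ≤ (s : ℕ) → Function.Injective (v s))
    (h3 : ∀ c : Fin b, Function.Bijective
      (fun i : Fin a => v ⟨ad b c i, ad_lt c.2 (i.2.le.trans hab)⟩ i)) :
    ∃ π : Equiv.Perm (Fin a), ∀ (s : Fin b) (i : Fin a),
      v s i = π ⟨phi (q * a) a s i, phi_lt ha _ _⟩ := by
  have hqa : a ≤ q * a := Nat.le_mul_of_pos_left a hq
  have hb0 : 0 < b := by omega
  let π : Equiv.Perm (Fin a) := Equiv.ofBijective _ (h3 ⟨0, hb0⟩)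
  have hπ : ∀ (u : Fin a) (hu : (u : ℕ) < b) (i : Fin a), v ⟨u, hu⟩ i = π u := by
    intro u hu i
    have e : (⟨ad b 0 u, ad_lt hb0 (u.2.le.trans hab)⟩ : Fin b) = ⟨u, hu⟩ := by
      apply Fin.ext
      change ad b 0 u = (u : ℕ)
      unfold ad
      rw [if_pos (by omega)]
      omega
    change _ = v ⟨ad b 0 u, _⟩ u
    rw [e]
    exact h1 _ (by change (u : ℕ) < q * a; have := u.2; omega) _ _
  -- the kept particles
  have s1 : ∀ n : ℕ, ∀ hn : n < b, n < q * a → ∀ i, v ⟨n, hn⟩ i = π ⟨n % a, Nat.mod_lt _ ha⟩ := by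
    intro n
    induction n using Nat.strong_induction_on with
    | _ n ih =>
      intro hn hnq i
      by_cases hna : n < a
      · have e : (⟨n % a, Nat.mod_lt _ ha⟩ : Fin a) = ⟨n, hna⟩ := Fin.ext (Nat.mod_eq_of_lt hna)
        rw [e]
        exact hπ ⟨n, hna⟩ hn i
      · have hc : n + 1 - a < b := by omega
        have hP : Function.Bijective (fun i : Fin a => π (Phi (q * a) b ha (n + 1 - a) i)) :=
          π.bijective.comp (Phi_bij ha hb hq hc)
        have hL := bij_one _ _ (h3 ⟨n + 1 - a, hc⟩) hP ⟨a - 1, by omega⟩ ?_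
        · have e1 : ad b (n + 1 - a) (a - 1) = n := by
            unfold ad
            rw [if_pos (by omega)]
            omega
          have e2 : Phi (q * a) b ha (n + 1 - a) ⟨a - 1, by omega⟩ = ⟨n % a, Nat.mod_lt _ ha⟩ := by
            apply Fin.ext
            change phi (q * a) a (ad b (n + 1 - a) (a - 1)) (a - 1) = n % a
            rw [e1]
            exact if_pos hnq
          have e3 : (⟨ad b (n + 1 - a) (a - 1), ad_lt hc (by omega)⟩ : Fin b) = ⟨n, hn⟩ :=
            Fin.ext e1
          have hL2 : v ⟨ad b (n + 1 - a) (a - 1), ad_lt hc (by omega)⟩ ⟨a - 1, by omega⟩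
              = π (Phi (q * a) b ha (n + 1 - a) ⟨a - 1, by omega⟩) := hL
          rw [e2, e3] at hL2
          rw [← hL2]
          exact h1 _ hnq _ _
        · intro j hj
          have hj1 : (j : ℕ) ≠ a - 1 := fun h => hj (Fin.ext h)
          have hj2 := j.2
          have e1 : ad b (n + 1 - a) j = n + 1 - a + j := if_pos (by omega)
          have e2 : Phi (q * a) b ha (n + 1 - a) j
              = ⟨(n + 1 - a + j) % a, Nat.mod_lt _ ha⟩ := by
            apply Fin.ext
            change phi (q * a) a (ad b (n + 1 - a) j) j = _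
            rw [e1]
            exact if_pos (by omega)
          have e3 : (⟨ad b (n + 1 - a) j, ad_lt hc (by omega)⟩ : Fin b)
              = ⟨n + 1 - a + j, by omega⟩ := Fin.ext e1
          change v ⟨ad b (n + 1 - a) j, _⟩ j = π (Phi (q * a) b ha (n + 1 - a) j)
          rw [e2, e3]
          exact ih (n + 1 - a + j) (by omega) (by omega) (by omega) j
  -- the dissolved particles
  have s2 : ∀ c : ℕ, ∀ (s : ℕ) (hs : s < b) (i : Fin a), s = c + i → q * a ≤ s →
      v ⟨s, hs⟩ i = π ⟨a - 1 - i, by omega⟩ := by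
    intro c
    induction c using Nat.strong_induction_on with
    | _ c ih =>
      intro s hs i hsc hqs
      have hc : c < b := by omega
      have hw : Function.Bijective (fun i : Fin a =>
          π.symm (v ⟨ad b c i, ad_lt hc (i.2.le.trans hab)⟩ i)) :=
        π.symm.bijective.comp (h3 ⟨c, hc⟩)
      have hge : ∀ j : Fin a, ((Phi (q * a) b ha c j : Fin a) : ℕ)
          ≤ (π.symm (v ⟨ad b c j, ad_lt hc (j.2.le.trans hab)⟩ j) : Fin a) := by
        intro j
        by_cases hj : ad b c j < q * a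
        · have e1 : v ⟨ad b c j, ad_lt hc (j.2.le.trans hab)⟩ j
              = π ⟨ad b c j % a, Nat.mod_lt _ ha⟩ := s1 _ _ hj j
          have e2 : ((Phi (q * a) b ha c j : Fin a) : ℕ) = ad b c j % a := if_pos hj
          rw [e1, e2, Equiv.symm_apply_apply]
        · have e2 : ((Phi (q * a) b ha c j : Fin a) : ℕ) = a - 1 - j := if_neg hj
          rw [e2]
          have hcj : c + (j : ℕ) < b := by
            by_contra hcj
            have : ad b c j = c + j - b := if_neg hcj
            have := j.2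
            omega
          have e3 : ad b c j = c + j := if_pos hcj
          set w : Fin a := π.symm (v ⟨ad b c j, ad_lt hc (j.2.le.trans hab)⟩ j) with hwdef
          have hw2 : π w = v ⟨ad b c j, ad_lt hc (j.2.le.trans hab)⟩ j := by
            rw [hwdef, Equiv.apply_symm_apply]
          by_contra hlt
          have hjlt := j.2
          have hwlt := w.2
          have hlt' : (w : ℕ) < a - 1 - j := by omega
          have key := ih (c + j - (a - 1 - w)) (by omega) (c + j) hcj
            ⟨a - 1 - w, by omega⟩ (by change c + (j : ℕ) = c + j - (a - 1 - w) + (a - 1 - w); omega)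
            (by omega)
          have e4 : (⟨a - 1 - ((⟨a - 1 - w, by omega⟩ : Fin a) : ℕ), by omega⟩ : Fin a) = w := by
            apply Fin.ext
            change a - 1 - (a - 1 - (w : ℕ)) = w
            omega
          rw [e4, hw2] at key
          have e5 : (⟨ad b c j, ad_lt hc (j.2.le.trans hab)⟩ : Fin b) = ⟨c + j, hcj⟩ := Fin.ext e3
          rw [e5] at key
          have := h2 ⟨c + j, hcj⟩ (by change q * a ≤ c + (j : ℕ); omega) key
          have h9 : a - 1 - (w : ℕ) = j := congrArg Fin.val this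
          omega
      have hfin := bij_eq _ _ hw (Phi_bij ha hb hq hc) hge i
      have hilt := i.2
      have e1 : ad b c i = s := by
        rw [hsc]
        exact if_pos (by omega)
      have e5 : (⟨ad b c i, ad_lt hc (i.2.le.trans hab)⟩ : Fin b) = ⟨s, hs⟩ := Fin.ext e1
      have e6 : Phi (q * a) b ha c i = ⟨a - 1 - i, by omega⟩ := by
        apply Fin.ext
        change phi (q * a) a (ad b c i) i = a - 1 - i
        rw [e1]
        exact if_neg (by omega)
      have hfin2 : π.symm (v ⟨ad b c i, ad_lt hc (i.2.le.trans hab)⟩ i)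
          = Phi (q * a) b ha c i := hfin
      rw [e5, e6] at hfin2
      rw [← hfin2, Equiv.apply_symm_apply]
  refine ⟨π, fun s i => ?_⟩
  by_cases hs : (s : ℕ) < q * a
  · rw [show v s i = π ⟨(s : ℕ) % a, Nat.mod_lt _ ha⟩ from s1 s s.2 hs i]
    congr 1
    exact Fin.ext (if_pos hs).symm
  · have hilt := i.2
    rw [show v s i = π ⟨a - 1 - i, by omega⟩ from
      s2 (s - i) s s.2 i (by omega) (by omega)]
    congr 1
    exact Fin.ext (if_neg hs).symm

theorem sg_perm {a : ℕ} (ρ : Equiv.Perm (Fin a)) : sg ρ = ((Equiv.Perm.sign ρ : ℤˣ) : ℤ) := by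
  unfold sg
  rw [dif_pos ρ.bijective]
  congr 2
  exact Equiv.ext fun _ => rfl

theorem sg_comp {a : ℕ} (π : Equiv.Perm (Fin a)) (f : Fin a → Fin a) (hf : Function.Bijective f) :
    sg (fun i => π (f i)) = ((Equiv.Perm.sign π : ℤˣ) : ℤ) * sg f := by
  have e : (fun i => π (f i)) = ((π * Equiv.ofBijective f hf : Equiv.Perm (Fin a)) :
      Fin a → Fin a) := rfl
  have e2 : f = ((Equiv.ofBijective f hf : Equiv.Perm (Fin a)) : Fin a → Fin a) := rfl
  conv_rhs => rw [e2]
  rw [e, sg_perm, sg_perm, Equiv.Perm.sign_mul]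
  push_cast
  rfl

theorem sg_ne_zero {a : ℕ} (f : Fin a → Fin a) (h : sg f ≠ 0) : Function.Bijective f := by
  by_contra hf
  exact h (dif_neg hf)

theorem sg_ne_zero' {a : ℕ} (f : Fin a → Fin a) (h : Function.Bijective f) : sg f ≠ 0 := by
  unfold sg
  rw [dif_pos h]
  exact Units.ne_zero _

theorem sign_pow_even {a b : ℕ} (π : Equiv.Perm (Fin a)) (hb : Even b) :
    ((Equiv.Perm.sign π : ℤˣ) : ℤ) ^ b = 1 := by
  obtain ⟨m, rfl⟩ := hb
  rw [← two_mul, pow_mul]
  have : ((Equiv.Perm.sign π : ℤˣ) : ℤ) ^ 2 = 1 := by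
    rw [← Units.val_pow_eq_pow_val, Int.units_sq]
    rfl
  rw [this, one_pow]

section

variable {a k q b : ℕ}

/-- Weights with the last `k` particles dissolved are `0` or the model weight. -/
theorem W_eq (hab : a ≤ b) (ha : 0 < a) (hq : 0 < q) (hb : b = q * a + k) (he : Even b)
    (E : Rl k a q ≃ Fin b) (σ : Fin k → Equiv.Perm (Fin a))
    (hE : ds E = univ.filter (fun s : Fin b => q * a ≤ (s : ℕ))) (hW : W hab E σ ≠ 0) :
    W hab E σ = ∏ c : Fin b, sg (Phi (q * a) b ha c) := by
  have hcol : ∀ c : Fin b, Function.Bijective (col hab E σ c) := by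
    intro c
    apply sg_ne_zero
    exact (Finset.prod_ne_zero_iff.1 hW) c (mem_univ c)
  have k1 : ∀ s : Fin b, (s : ℕ) < q * a → ∀ i j, H75.val E σ s i = H75.val E σ s j := by
    intro s hs i j
    unfold H75.val
    rcases hx : E.symm s with r | pj
    · exfalso
      have h1 : s ∈ ds E := mem_image.2 ⟨r, mem_univ _, by rw [← hx, Equiv.apply_symm_apply]⟩
      rw [hE, mem_filter] at h1
      omega
    · rfl
  have k2 : ∀ s : Fin b, q * a ≤ (s : ℕ) → Function.Injective (H75.val E σ s) := by
    intro s hs i j hij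
    have h1 : s ∈ ds E := by
      rw [hE, mem_filter]
      exact ⟨mem_univ _, hs⟩
    obtain ⟨r, -, hr⟩ := mem_image.1 h1
    have h2 : E.symm s = Sum.inl r := by rw [← hr, Equiv.symm_apply_apply]
    unfold H75.val at hij
    rw [h2] at hij
    exact (σ r).symm.injective hij
  obtain ⟨π, hπ⟩ := forced ha hq hb hab (H75.val E σ) k1 k2 hcol
  have h : ∀ c : Fin b, sg (col hab E σ c)
      = ((Equiv.Perm.sign π : ℤˣ) : ℤ) * sg (Phi (q * a) b ha c) := by
    intro c
    rw [← sg_comp π _ (Phi_bij ha hb hq c.2)]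
    congr 1
    funext i
    exact hπ _ i
  unfold W
  rw [prod_congr rfl fun c _ => h c, prod_mul_distrib, prod_const, card_univ, Fintype.card_fin,
    sign_pow_even π he, one_mul]

/-- The model placement. -/
def g0 (hb : b = q * a + k) : Rl k a q → Fin b
  | Sum.inl r => ⟨q * a + r, by omega⟩
  | Sum.inr pj => ⟨pj.2 * a + pj.1, by
      have h1 : ((pj.2 : ℕ) + 1) * a ≤ q * a := Nat.mul_le_mul_right a pj.2.2
      rw [Nat.succ_mul] at h1
      have := pj.1.2
      omega⟩

theorem g0_bij (hb : b = q * a + k) : Function.Bijective (g0 (a := a) hb) := by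
  refine (Fintype.bijective_iff_injective_and_card _).2 ⟨?_, ?_⟩
  · have hlt : ∀ pj : Fin a × Fin q, (pj.2 : ℕ) * a + pj.1 < q * a := by
      intro pj
      have h1 : ((pj.2 : ℕ) + 1) * a ≤ q * a := Nat.mul_le_mul_right a pj.2.2
      rw [Nat.succ_mul] at h1
      have := pj.1.2
      omega
    rintro (r | pj) (r' | pj') h
    · have h' : q * a + (r : ℕ) = q * a + r' := congrArg Fin.val h
      congr 1
      exact Fin.ext (by omega)
    · have h' : q * a + (r : ℕ) = pj'.2 * a + pj'.1 := congrArg Fin.val h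
      have := hlt pj'
      omega
    · have h' : (pj.2 : ℕ) * a + pj.1 = q * a + (r' : ℕ) := congrArg Fin.val h
      have := hlt pj
      omega
    · have h' : (pj.2 : ℕ) * a + pj.1 = pj'.2 * a + pj'.1 := congrArg Fin.val h
      have e1 : ((pj.2 : ℕ) * a + pj.1) % a = pj.1 := by
        rw [Nat.add_comm, Nat.add_mul_mod_self_right, Nat.mod_eq_of_lt pj.1.2]
      have e2 : ((pj'.2 : ℕ) * a + pj'.1) % a = pj'.1 := by
        rw [Nat.add_comm, Nat.add_mul_mod_self_right, Nat.mod_eq_of_lt pj'.1.2]
      have e3 : (pj.1 : ℕ) = pj'.1 := by rw [← e1, ← e2, h']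
      have e4 : (pj.2 : ℕ) * a = pj'.2 * a := by omega
      have e5 : (pj.2 : ℕ) = pj'.2 := Nat.eq_of_mul_eq_mul_right (by have := pj.1.2; omega) e4
      congr 1
      exact Prod.ext (Fin.ext e3) (Fin.ext e5)
  · simp only [Fintype.card_sum, Fintype.card_prod, Fintype.card_fin]
    rw [hb, Nat.mul_comm]
    omega

/-- The model placement as an equivalence. -/
noncomputable def E0 (hb : b = q * a + k) : Rl k a q ≃ Fin b := Equiv.ofBijective _ (g0_bij hb)

theorem ds_E0 (hb : b = q * a + k) :
    ds (E0 (a := a) hb) = univ.filter (fun s : Fin b => q * a ≤ (s : ℕ)) := by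
  ext s
  rw [mem_filter]
  constructor
  · intro h
    obtain ⟨r, -, hr⟩ := mem_image.1 h
    refine ⟨mem_univ _, ?_⟩
    rw [← hr]
    change q * a ≤ q * a + (r : ℕ)
    omega
  · rintro ⟨-, h⟩
    refine mem_image.2 ⟨⟨(s : ℕ) - q * a, by omega⟩, mem_univ _, ?_⟩
    apply Fin.ext
    change q * a + ((s : ℕ) - q * a) = s
    omega

theorem val_E0 (ha : 0 < a) (hb : b = q * a + k) (s : Fin b) (i : Fin a) :
    H75.val (E0 (a := a) hb) (fun _ => Fin.revPerm) s i = ⟨phi (q * a) a s i, phi_lt ha _ _⟩ := by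
  unfold H75.val
  rcases hx : (E0 (a := a) hb).symm s with r | pj
  · have hs : s = (E0 (a := a) hb) (Sum.inl r) := by rw [← hx, Equiv.apply_symm_apply]
    have hs' : (s : ℕ) = q * a + r := congrArg Fin.val hs
    apply Fin.ext
    change a - ((i : ℕ) + 1) = phi (q * a) a s i
    have : phi (q * a) a s i = a - 1 - i := if_neg (by omega)
    omega
  · have hs : s = (E0 (a := a) hb) (Sum.inr pj) := by rw [← hx, Equiv.apply_symm_apply]
    have hs' : (s : ℕ) = pj.2 * a + pj.1 := congrArg Fin.val hs
    apply Fin.ext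
    change (pj.1 : ℕ) = phi (q * a) a s i
    have h1 : ((pj.2 : ℕ) + 1) * a ≤ q * a := Nat.mul_le_mul_right a pj.2.2
    rw [Nat.succ_mul] at h1
    have h2 := pj.1.2
    have h3 : phi (q * a) a s i = (s : ℕ) % a := if_pos (by omega)
    rw [h3, hs', Nat.add_comm, Nat.add_mul_mod_self_right, Nat.mod_eq_of_lt pj.1.2]

theorem W_E0 (hab : a ≤ b) (ha : 0 < a) (hb : b = q * a + k) :
    W hab (E0 (a := a) hb) (fun _ => Fin.revPerm) = ∏ c : Fin b, sg (Phi (q * a) b ha c) := by
  unfold W
  refine prod_congr rfl fun c _ => ?_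
  congr 1
  funext i
  exact val_E0 ha hb _ i

end

/-- **[R2]** the base: the last `k` particles are dissolved. -/
theorem r2 : H75.R2 := by
  intro a k q b hab ha hq hb he
  set W0 : ℤ := ∏ c : Fin b, sg (Phi (q * a) b ha c) with hW0
  have hne : W0 ≠ 0 := by
    rw [hW0]
    exact Finset.prod_ne_zero_iff.2 fun c _ => sg_ne_zero' _ (Phi_bij ha hb hq c.2)
  have hnn : ∀ (E : Rl k a q ≃ Fin b) (σ : Fin k → Equiv.Perm (Fin a)),
      ds E = univ.filter (fun s : Fin b => q * a ≤ (s : ℕ)) → 0 ≤ W0 * W hab E σ := by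
    intro E σ hE
    by_cases h : W hab E σ = 0
    · rw [h, mul_zero]
    · rw [W_eq hab ha hq hb he E σ hE h, ← hW0]
      exact mul_self_nonneg _
  have hpos : 0 < W0 * TK k q hab (univ.filter (fun s : Fin b => q * a ≤ (s : ℕ))) := by
    unfold TK T
    rw [mul_sum]
    simp_rw [mul_sum]
    refine Finset.sum_pos' (fun E hE => ?_) ⟨E0 hb, ?_, ?_⟩
    · exact Finset.sum_nonneg fun σ _ => hnn E σ (mem_filter.1 hE).2
    · exact mem_filter.2 ⟨mem_univ _, ds_E0 hb⟩
    · refine Finset.sum_pos' (fun σ _ => hnn _ σ (ds_E0 hb))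
        ⟨fun _ => Fin.revPerm, mem_univ _, ?_⟩
      rw [W_E0 hab ha hb, ← hW0]
      exact mul_self_pos.2 hne
  intro h
  rw [h, mul_zero] at hpos
  exact lt_irrefl _ hpos

end Vale.Agent.P181.H831
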